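import Vale.Agent.P047.Bridge

namespace Vale.Agent.Results.P047.NoSqrtBound

open Vale.Agent.P047

/-- The Gopalan-Servedio conjecture is false, even up to an arbitrary constant factor. -/
theorem result : ∀ C : ℝ, ∃ n : ℕ, 1 ≤ n ∧ ∃ f : (Fin n → Bool) → ℝ, IsBoolean f ∧
    C * Real.sqrt (deg f) < ∑ i : Fin n, fourier f {i} :=
  not_sqrt_bound

end Vale.Agent.Results.P047.NoSqrtBound
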