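import Mathlib
import Vale.Agent.P047b.Defs
import Vale.Agent.P047b.Poly

namespace Vale.Agent.Results.P047.Poly

open Vale.Agent.P047b

theorem result : ∃ ε c : ℝ, 0 < ε ∧ 0 < c ∧ ∀ d : ℕ, 1 ≤ d → ∃ n : ℕ, 1 ≤ n ∧
    ∃ f : (Fin n → Bool) → ℝ, (∀ x, f x = 1 ∨ f x = -1) ∧ deg f ≤ d ∧
      c * (d : ℝ) ^ (1 / 2 + ε) ≤ ∑ i, coeff f {i} :=
  poly_lower

end Vale.Agent.Results.P047.Poly
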