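import Vale.Agent.P047.Poly

namespace Vale.Agent.Results.P047.PolyGrowth

open Vale.Agent.P047

/-- `M(d) ≥ c d^(1/2+ε)` for all `d ≥ 1`, for some absolute `ε, c > 0`. -/
theorem result : ∃ ε : ℝ, 0 < ε ∧ ∃ c : ℝ, 0 < c ∧ ∀ d : ℕ, 1 ≤ d →
    ∃ n : ℕ, 1 ≤ n ∧ ∃ f : (Fin n → Bool) → ℝ, IsBoolean f ∧ deg f ≤ d ∧
      c * (d : ℝ) ^ (1 / 2 + ε) ≤ ∑ i : Fin n, fourier f {i} :=
  poly_bound

end Vale.Agent.Results.P047.PolyGrowth
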